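import Mathlib
import Crest.Prelude.Def_QState
import Crest.Prelude.Def_QChannel
import Crest.Prelude.Def_Entanglement

set_option autoImplicit false
set_option linter.unusedSectionVars false

namespace Crest.Agent.R345

open Crest.Quantum Matrix
open scoped ComplexOrder Kronecker

section general

variable {d e f : Type*} [Fintype d] [Fintype e] [Fintype f]
  [DecidableEq d] [DecidableEq e] [DecidableEq f]

/-- conjugation by one matrix is completely positive -/
theorem cp_conj (K : Matrix e d ℂ) : IsCompletelyPositive (fun X : Matrix d d ℂ => K * X * Kᴴ) := by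
  intro k M hM
  have h : blockwise (k := Fin k) (fun X : Matrix d d ℂ => K * X * Kᴴ) M =
      ((1 : Matrix (Fin k) (Fin k) ℂ) ⊗ₖ K) * M * ((1 : Matrix (Fin k) (Fin k) ℂ) ⊗ₖ K)ᴴ := by
    ext ⟨p, s⟩ ⟨q, t⟩
    simp [blockwise, block, Matrix.mul_apply, Fintype.sum_prod_type, Matrix.one_apply,
      Matrix.kroneckerMap_apply, Finset.sum_ite_eq, ite_mul, apply_ite]
  rw [h]
  exact hM.mul_mul_conjTranspose_same _

omit [DecidableEq d] [DecidableEq e] in
theorem cp_add {Φ Ψ : Matrix d d ℂ → Matrix e e ℂ} (h1 : IsCompletelyPositive Φ)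
    (h2 : IsCompletelyPositive Ψ) : IsCompletelyPositive (fun X => Φ X + Ψ X) := by
  intro k M hM
  have h : blockwise (k := Fin k) (fun X => Φ X + Ψ X) M =
      blockwise (k := Fin k) Φ M + blockwise (k := Fin k) Ψ M := by
    ext p q; simp [blockwise]
  rw [h]
  exact (h1 k M hM).add (h2 k M hM)

omit [DecidableEq d] [DecidableEq e] in
theorem cp_smul {Φ : Matrix d d ℂ → Matrix e e ℂ} (h1 : IsCompletelyPositive Φ) (c : ℝ)
    (hc : 0 ≤ c) : IsCompletelyPositive (fun X => (c : ℂ) • Φ X) := by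
  intro k M hM
  have h : blockwise (k := Fin k) (fun X => (c : ℂ) • Φ X) M =
      (c : ℂ) • blockwise (k := Fin k) Φ M := by
    ext p q; simp [blockwise]
  rw [h]
  exact (h1 k M hM).smul (by exact_mod_cast hc)

omit [DecidableEq d] [DecidableEq e] in
theorem cp_sum {ι : Type*} (s : Finset ι) {Φ : ι → Matrix d d ℂ → Matrix e e ℂ}
    (h : ∀ i ∈ s, IsCompletelyPositive (Φ i)) :
    IsCompletelyPositive (fun X => ∑ i ∈ s, Φ i X) := by
  intro k M hM
  have h' : blockwise (k := Fin k) (fun X => ∑ i ∈ s, Φ i X) M =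
      ∑ i ∈ s, blockwise (k := Fin k) (Φ i) M := by
    ext p q; simp [blockwise, Matrix.sum_apply]
  rw [h']
  exact Matrix.posSemidef_sum s fun i hi => h i hi k M hM

omit [DecidableEq d] [DecidableEq e] [DecidableEq f] in
theorem cp_comp {Φ : Matrix d d ℂ → Matrix e e ℂ} {Ψ : Matrix e e ℂ → Matrix f f ℂ}
    (h1 : IsCompletelyPositive Φ) (h2 : IsCompletelyPositive Ψ) :
    IsCompletelyPositive (fun X => Ψ (Φ X)) := by
  intro k M hM
  have h : blockwise (k := Fin k) (fun X => Ψ (Φ X)) M =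
      blockwise (k := Fin k) Ψ (blockwise (k := Fin k) Φ M) := by
    ext p q; rfl
  rw [h]
  exact h2 k _ (h1 k M hM)

/-- A map in weighted Kraus form. -/
noncomputable def kraus {ι : Type*} [Fintype ι] (c : ι → ℝ) (K : ι → Matrix e d ℂ)
    (X : Matrix d d ℂ) : Matrix e e ℂ :=
  ∑ a, (c a : ℂ) • (K a * X * (K a)ᴴ)

theorem kraus_cp {ι : Type*} [Fintype ι] (c : ι → ℝ) (hc : ∀ a, 0 ≤ c a) (K : ι → Matrix e d ℂ) :
    IsCompletelyPositive (kraus c K) :=
  cp_sum Finset.univ fun a _ => cp_smul (cp_conj (K a)) (c a) (hc a)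

omit [DecidableEq d] [DecidableEq e] [Fintype e] in
theorem kraus_linear {ι : Type*} [Fintype ι] (c : ι → ℝ) (K : ι → Matrix e d ℂ) :
    IsLinearMap ℂ (kraus c K) := by
  constructor
  · intro X Y
    simp [kraus, Matrix.mul_add, Matrix.add_mul, Finset.sum_add_distrib]
  · intro t X
    simp only [kraus, Finset.smul_sum, Matrix.mul_smul, Matrix.smul_mul]
    exact Finset.sum_congr rfl fun a _ => smul_comm _ _ _

omit [DecidableEq d] [DecidableEq e] [Fintype e] in
theorem kraus_apply {ι : Type*} [Fintype ι] (c : ι → ℝ) (K : ι → Matrix e d ℂ)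
    (X : Matrix d d ℂ) (s t : e) :
    kraus c K X s t = ∑ i, ∑ j, (∑ a, (c a : ℂ) * K a s i * star (K a t j)) * X i j := by
  simp only [kraus, Matrix.sum_apply, Matrix.smul_apply, Matrix.mul_apply, smul_eq_mul,
    Matrix.conjTranspose_apply, Finset.mul_sum, Finset.sum_mul]
  rw [Finset.sum_comm]
  rw [Finset.sum_comm (s := Finset.univ) (t := Finset.univ)
    (f := fun i j => ∑ a, (c a : ℂ) * K a s i * star (K a t j) * X i j)]
  refine Finset.sum_congr rfl fun j _ => ?_
  rw [Finset.sum_comm]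
  refine Finset.sum_congr rfl fun i _ => Finset.sum_congr rfl fun a _ => ?_
  ring

omit [DecidableEq d] [DecidableEq e] in
theorem ppt_of_symm {Φ : Matrix d d ℂ → Matrix e e ℂ} (h : IsCompletelyPositive Φ)
    (hs : ∀ X, (Φ X).transpose = Φ X) : IsPPT Φ := by
  refine ⟨h, ?_⟩
  have : (fun M => (Φ M).transpose) = Φ := funext hs
  rw [this]; exact h

omit [DecidableEq e] in
/-- A separable matrix whose left kernel forbids product vectors vanishes. -/
theorem eq_zero_of_separable (C : Matrix (d × e) (d × e) ℂ) (hC : IsSeparable C)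
    (hK : ∀ (u : d → ℂ) (v : e → ℂ),
      (∀ l : d × e → ℂ, l ᵥ* C = 0 → l ⬝ᵥ (fun p => u p.1 * v p.2) = 0) → u = 0 ∨ v = 0) :
    C = 0 := by
  classical
  obtain ⟨r, A, B, hA, hB, hsum⟩ := hC
  have hpsd : ∀ i, (A i ⊗ₖ B i).PosSemidef := fun i => (hA i).kronecker (hB i)
  have key : ∀ l : d × e → ℂ, l ᵥ* C = 0 → ∀ i, l ᵥ* (A i ⊗ₖ B i) = 0 := by
    intro l hl i
    have h0 : ∑ i, star (star l) ⬝ᵥ ((A i ⊗ₖ B i) *ᵥ star l) = 0 := by
      have : l ⬝ᵥ (C *ᵥ star l) = 0 := by
        rw [Matrix.dotProduct_mulVec, hl, zero_dotProduct]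
      rw [hsum, Matrix.sum_mulVec, dotProduct_sum] at this
      simpa using this
    have h1 := (Finset.sum_eq_zero_iff_of_nonneg
      (fun i _ => (hpsd i).dotProduct_mulVec_nonneg (star l))).1 h0 i (Finset.mem_univ _)
    have h2 := ((hpsd i).dotProduct_mulVec_zero_iff (star l)).1 h1
    have h3 := congrArg star h2
    rw [Matrix.star_mulVec, (hpsd i).isHermitian.eq] at h3
    simpa using h3
  rw [hsum]
  refine Finset.sum_eq_zero fun i _ => ?_
  ext ⟨a, b⟩ ⟨a', b'⟩
  have := hK (fun x => A i x a') (fun y => B i y b') (by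
    intro l hl
    have := congrFun (key l hl i) (a', b')
    simpa [Matrix.vecMul, Matrix.kroneckerMap_apply] using this)
  rcases this with h | h
  · simp [Matrix.kroneckerMap_apply, congrFun h a]
  · simp [Matrix.kroneckerMap_apply, congrFun h b]

theorem trace_kraus {ι : Type*} [Fintype ι] (c : ι → ℝ) (K : ι → Matrix e d ℂ)
    (X : Matrix d d ℂ) :
    (kraus c K X).trace = ((∑ a, (c a : ℂ) • ((K a)ᴴ * K a)) * X).trace := by
  simp only [kraus, Matrix.trace_sum, Matrix.trace_smul, Finset.sum_mul, Matrix.smul_mul]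
  refine Finset.sum_congr rfl fun a _ => ?_
  rw [Matrix.trace_mul_comm, ← Matrix.mul_assoc]

theorem herm_kraus {ι : Type*} [Fintype ι] (c : ι → ℝ) (K : ι → Matrix e d ℂ) :
    (∑ a, (c a : ℂ) • ((K a)ᴴ * K a)).IsHermitian := by
  unfold Matrix.IsHermitian
  simp [Matrix.conjTranspose_sum, Matrix.conjTranspose_smul, Matrix.conjTranspose_mul]

open scoped MatrixOrder Matrix.Norms.L2Operator in
theorem exists_small (F : Matrix d d ℂ) (hF : F.IsHermitian) :
    ∃ s : ℝ, 0 < s ∧ (1 - (s : ℂ) • F).PosSemidef := by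
  have h1 : F ≤ algebraMap ℝ (Matrix d d ℂ) ‖F‖ :=
    IsSelfAdjoint.le_algebraMap_norm_self (a := F) hF
  have h2 : (algebraMap ℝ (Matrix d d ℂ) ‖F‖ - F).PosSemidef := Matrix.le_iff.1 h1
  have hn : 0 ≤ ‖F‖ := norm_nonneg _
  refine ⟨1 / (‖F‖ + 1), by positivity, ?_⟩
  have h3 : (1 : Matrix d d ℂ) - ((1 / (‖F‖ + 1) : ℝ) : ℂ) • F =
      ((1 / (‖F‖ + 1) : ℝ) : ℂ) • ((algebraMap ℝ (Matrix d d ℂ) ‖F‖ - F) + 1) := by
    have hne : ((‖F‖ : ℂ) + 1) ≠ 0 := by exact_mod_cast (by positivity : (‖F‖ + 1 : ℝ) ≠ 0)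
    rw [Algebra.algebraMap_eq_smul_one]
    ext i j
    simp only [Matrix.sub_apply, Matrix.smul_apply, Matrix.add_apply, smul_eq_mul,
      Complex.real_smul]
    push_cast
    field_simp
    ring
  rw [h3]
  exact (h2.add Matrix.PosSemidef.one).smul (by
    exact_mod_cast (by positivity : (0 : ℝ) ≤ 1 / (‖F‖ + 1)))

open scoped MatrixOrder in
theorem cp_trash (D : Matrix d d ℂ) (hD : D.PosSemidef) (z : e) :
    IsCompletelyPositive
      (fun Y : Matrix d d ℂ => (D * Y).trace • (Matrix.single z z 1 : Matrix e e ℂ)) := by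
  obtain ⟨B, hB⟩ := CStarAlgebra.nonneg_iff_eq_star_mul_self.1 hD.nonneg
  have h1 := cp_comp (cp_conj B)
    (kraus_cp (fun _ : d => (1 : ℝ)) (fun _ => zero_le_one)
      (fun r : d => (Matrix.single z r 1 : Matrix e d ℂ)))
  have : (fun Y : Matrix d d ℂ => (D * Y).trace • (Matrix.single z z 1 : Matrix e e ℂ)) =
      fun X => kraus (fun _ : d => (1 : ℝ)) (fun r : d => (Matrix.single z r 1 : Matrix e d ℂ))
        (B * X * Bᴴ) := by
    funext Y
    rw [hB, Matrix.star_eq_conjTranspose, Matrix.mul_assoc, Matrix.trace_mul_comm]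
    generalize B * Y * Bᴴ = N
    simp only [kraus, Complex.ofReal_one, one_smul, Matrix.conjTranspose_single, star_one,
      Matrix.single_mul_mul_single, one_mul, mul_one, Matrix.trace, Matrix.diag_apply,
      Finset.sum_smul, Matrix.smul_single, smul_eq_mul]
  rw [this]; exact h1

end general

end Crest.Agent.R345
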