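import Mathlib

set_option autoImplicit false

namespace Crest.Agent.R345

/-! General-position check modulo a prime. -/

/-- `b * w - c * v` modulo `p`, with the shorter list padded by zeros (here `c' = p - c`). -/
def elimAux (p b c' : ℕ) : List ℕ → List ℕ → List ℕ
  | x :: v, y :: w => ((b * y + c' * x) % p) :: elimAux p b c' v w
  | [], w => w.map fun y => (b * y) % p
  | v, [] => v.map fun x => (c' * x) % p

def elim (p : ℕ) (v w : List ℕ) : List ℕ :=
  elimAux p (v.headD 0) (p - w.headD 0 % p) v.tail w.tail

def checkRow (p n : ℕ) (rec : List (List ℕ) → Bool) : List (List ℕ) → Bool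
  | [] => true
  | v :: L => (decide (L.length < n)) ||
      (!(v.headD 0 % p == 0) && (rec (L.map (elim p v)) && checkRow p n rec L))

def check (p : ℕ) : ℕ → List (List ℕ) → Bool
  | 0 => fun _ => true
  | n + 1 => checkRow p n (check p n)

section field
variable {k : Type*} [Field k]

def ldot : List k → List ℕ → k
  | a :: u, x :: w => a * x + ldot u w
  | _, _ => 0

@[simp] theorem ldot_nil_left (w : List ℕ) : ldot ([] : List k) w = 0 := by
  cases w <;> rfl
@[simp] theorem ldot_nil_right (u : List k) : ldot u [] = 0 := by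
  cases u <;> rfl
@[simp] theorem ldot_cons (a : k) (u : List k) (x : ℕ) (w : List ℕ) :
    ldot (a :: u) (x :: w) = a * x + ldot u w := rfl

theorem ldot_cons' (a : k) (u : List k) (w : List ℕ) :
    ldot (a :: u) w = a * (w.headD 0 : ℕ) + ldot u w.tail := by
  cases w <;> simp

theorem cast_mod (p : ℕ) (hp : (p : k) = 0) (x : ℕ) : ((x % p : ℕ) : k) = x := by
  conv_rhs => rw [← Nat.mod_add_div x p]
  push_cast
  rw [hp]; ring

theorem ldot_map (p : ℕ) (hp : (p : k) = 0) (b : ℕ) (u : List k) (w : List ℕ) :
    ldot u (w.map fun y => (b * y) % p) = b * ldot u w := by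
  induction u generalizing w with
  | nil => simp
  | cons a u ih =>
    cases w with
    | nil => simp
    | cons y w =>
      simp only [List.map_cons, ldot_cons, ih, cast_mod p hp]
      push_cast; ring

theorem ldot_elimAux (p : ℕ) (hp : (p : k) = 0) (b c' : ℕ) (u : List k) (v w : List ℕ) :
    ldot u (elimAux p b c' v w) = b * ldot u w + c' * ldot u v := by
  induction u generalizing v w with
  | nil => simp
  | cons a u ih =>
    cases v with
    | nil =>
      have : elimAux p b c' [] w = w.map fun y => (b * y) % p := by cases w <;> rfl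
      rw [this, ldot_map p hp]; simp
    | cons x v =>
      cases w with
      | nil =>
        have : elimAux p b c' (x :: v) [] = (x :: v).map fun x => (c' * x) % p := rfl
        rw [this, ldot_map p hp]; simp
      | cons y w =>
        have : elimAux p b c' (x :: v) (y :: w) =
          ((b * y + c' * x) % p) :: elimAux p b c' v w := rfl
        rw [this]
        simp only [ldot_cons, ih, cast_mod p hp]
        push_cast; ring

theorem ldot_elim (p : ℕ) (hp0 : 0 < p) (hp : (p : k) = 0) (a : k) (u : List k) (v w : List ℕ)
    (hv : ldot (a :: u) v = 0) (hw : ldot (a :: u) w = 0) : ldot u (elim p v w) = 0 := by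
  rw [ldot_cons'] at hv hw
  unfold elim
  rw [ldot_elimAux p hp, Nat.cast_sub (Nat.mod_lt _ hp0).le, cast_mod p hp, hp]
  linear_combination (v.headD 0 : k) * hw - (w.headD 0 : k) * hv

open Classical in
theorem check_sound (p : ℕ) (hpp : p.Prime) (hp : (p : k) = 0) (n : ℕ) :
    ∀ (L : List (List ℕ)), check p n L = true → ∀ u : List k, u.length = n →
      n ≤ L.countP (fun w => decide (ldot u w = 0)) → ∀ a ∈ u, a = 0 := by
  haveI : Fact p.Prime := ⟨hpp⟩
  haveI : CharP k p := (CharP.charP_iff_prime_eq_zero hpp).2 hp
  induction n with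
  | zero =>
    intro L _ u hu _ a ha
    rw [List.length_eq_zero_iff] at hu
    simp [hu] at ha
  | succ n ih =>
    intro L
    induction L with
    | nil => intro _ u _ hc; simp at hc
    | cons v L ihL =>
      intro hchk u hu hc
      obtain ⟨a, u, rfl⟩ : ∃ a u', u = a :: u' := by
        cases u with
        | nil => simp at hu
        | cons a u => exact ⟨a, u, rfl⟩
      have hu' : u.length = n := by simpa using hu
      simp only [check, checkRow, Bool.or_eq_true, decide_eq_true_eq, Bool.and_eq_true,
        Bool.not_eq_true', beq_eq_false_iff_ne, ne_eq] at hchk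
      rcases hchk with hlen | ⟨hv0, h1, h2⟩
      · have := List.countP_le_length (p := fun w => decide (ldot (a :: u) w = 0)) (l := v :: L)
        simp only [List.length_cons] at this
        omega
      · by_cases hv : ldot (a :: u) v = 0
        · have hc' : n ≤ L.countP (fun w => decide (ldot (a :: u) w = 0)) := by
            rw [List.countP_cons] at hc
            split_ifs at hc <;> omega
          have hc'' : n ≤ (L.map (elim p v)).countP (fun w => decide (ldot u w = 0)) := by
            rw [List.countP_map]
            refine hc'.trans (List.countP_mono_left ?_)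
            intro w _ hw
            simp only [decide_eq_true_eq, Function.comp] at hw ⊢
            exact ldot_elim p hpp.pos hp a u v w hv hw
          have hz := ih _ h1 u hu' hc''
          have hz' : ∀ w, ldot u w = 0 := by
            intro w
            clear hc'' hc' hc hv ihL hu hu'
            induction u generalizing w with
            | nil => simp
            | cons b u ihu =>
              rw [ldot_cons', hz b (by simp), ihu (fun a ha => hz a (by simp [ha]))]; simp
          rw [ldot_cons', hz', add_zero] at hv
          have hne : ((v.headD 0 : ℕ) : k) ≠ 0 := by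
            rw [Ne, CharP.cast_eq_zero_iff k p]
            exact fun h => hv0 (Nat.mod_eq_zero_of_dvd h)
          have ha : a = 0 := (mul_eq_zero.1 hv).resolve_right hne
          intro b hb
          rcases List.mem_cons.1 hb with rfl | hb
          · exact ha
          · exact hz b hb
        · refine ihL h2 (a :: u) hu ?_
          rw [List.countP_cons] at hc
          simpa [hv] using hc

theorem ldot_ofFn (n : ℕ) (u : Fin n → k) (w : List ℕ) :
    ldot (List.ofFn u) w = ∑ i : Fin n, u i * (w.getD i 0 : ℕ) := by
  induction n generalizing w with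
  | zero => simp
  | succ n ih =>
    rw [List.ofFn_succ, ldot_cons', ih, Fin.sum_univ_succ]
    cases w <;> simp

end field

/-! Reduction of a complex solution modulo a prime through a valuation subring. -/

theorem exists_valuationSubring (p : ℕ) (hpp : p.Prime) :
    ∃ O : ValuationSubring ℂ, (p : ℂ) ∈ O.nonunits := by
  let A : Subring ℂ := ⊥
  have hI : Ideal.span {(p : A)} ≠ ⊤ := by
    rw [Ne, Ideal.span_singleton_eq_top, isUnit_iff_exists_inv]
    rintro ⟨⟨b, hb⟩, h⟩
    obtain ⟨z, rfl⟩ := Subring.mem_bot.1 hb
    have h' : (p : ℂ) * (z : ℂ) = 1 := by simpa using congrArg Subtype.val h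
    have h'' : (p : ℤ) * z = 1 := by exact_mod_cast h'
    have := Int.isUnit_iff_natAbs_eq.1 (IsUnit.of_mul_eq_one _ h'')
    simp at this
    exact hpp.one_lt.ne' this
  obtain ⟨B, _, hB⟩ := Ideal.image_subset_nonunits_valuationSubring _ hI
  exact ⟨B, hB ⟨(p : A), Ideal.mem_span_singleton_self _, by simp⟩⟩

theorem exists_scale (O : ValuationSubring ℂ) {n : ℕ} (u : Fin n → ℂ) (hu : u ≠ 0) :
    ∃ (t : ℂ) (u' : Fin n → O) (i₀ : Fin n), t ≠ 0 ∧ u' i₀ = 1 ∧ ∀ i, u i = t * u' i := by
  obtain ⟨j, hj⟩ := Function.ne_iff.1 hu
  obtain ⟨i₀, -, hi₀⟩ := Finset.exists_max_image Finset.univ (fun i => O.valuation (u i))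
    ⟨j, Finset.mem_univ _⟩
  have h0 : u i₀ ≠ 0 := by
    intro h
    have := hi₀ j (Finset.mem_univ _)
    rw [h, map_zero, le_zero_iff, map_eq_zero] at this
    exact hj this
  have hmem : ∀ i, u i / u i₀ ∈ O := by
    intro i
    rw [← O.valuation_le_one_iff, map_div₀]
    exact div_le_one_of_le₀ (hi₀ i (Finset.mem_univ _)) zero_le'
  refine ⟨u i₀, fun i => ⟨u i / u i₀, hmem i⟩, i₀, h0, ?_, fun i => ?_⟩
  · ext; simp [h0]
  · simp only; field_simp

/-- No nonzero complex solution of integer bilinear equations whose reductions modulo `p` are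
products of evaluations at points in general position. -/
theorem no_solution (p : ℕ) (hpp : p.Prime) (m n : ℕ) (P : List (List ℕ × List ℕ))
    (hlen : m + n ≤ P.length + 1)
    (hU : check p m (P.map Prod.fst) = true) (hV : check p n (P.map Prod.snd) = true)
    (u : Fin m → ℂ) (v : Fin n → ℂ)
    (h : ∀ q ∈ P, ∃ Λ : Fin n → Fin m → ℤ,
      (∀ j i, (p : ℤ) ∣ Λ j i - (q.2.getD j 0 : ℕ) * (q.1.getD i 0 : ℕ)) ∧
      ∑ j, ∑ i, (Λ j i : ℂ) * u i * v j = 0) : u = 0 ∨ v = 0 := by
  classical
  by_contra hne
  push Not at hne
  obtain ⟨O, hO⟩ := exists_valuationSubring p hpp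
  obtain ⟨t, u', i₀, ht, hi₀, hu'⟩ := exists_scale O u hne.1
  obtain ⟨s, v', j₀, hs, hj₀, hv'⟩ := exists_scale O v hne.2
  let r := IsLocalRing.residue O
  have hp : (p : IsLocalRing.ResidueField O) = 0 := by
    rw [← map_natCast r, IsLocalRing.residue_eq_zero_iff]
    rw [← ValuationSubring.coe_mem_nonunits_iff]
    simpa using hO
  have key : ∀ q ∈ P, ldot (List.ofFn fun i => r (u' i)) q.1 = 0 ∨
      ldot (List.ofFn fun j => r (v' j)) q.2 = 0 := by
    intro q hq
    obtain ⟨Λ, hΛ, h0⟩ := h q hq
    have h1 : ∑ j, ∑ i, (Λ j i : O) * u' i * v' j = 0 := by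
      apply Subtype.ext
      have : t * s * ∑ j, ∑ i, (Λ j i : ℂ) * (u' i : ℂ) * (v' j : ℂ) = 0 := by
        rw [← h0, Finset.mul_sum]
        refine Finset.sum_congr rfl fun j _ => ?_
        rw [Finset.mul_sum]
        refine Finset.sum_congr rfl fun i _ => ?_
        rw [hu' i, hv' j]; ring
      have h2 := (mul_eq_zero.1 this).resolve_left (mul_ne_zero ht hs)
      simpa using h2
    have h2 := congrArg r h1
    simp only [map_sum, map_mul, map_intCast, map_zero] at h2
    rw [← mul_eq_zero, ldot_ofFn, ldot_ofFn, ← h2, mul_comm, Finset.sum_mul_sum]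
    refine Finset.sum_congr rfl fun j _ => Finset.sum_congr rfl fun i _ => ?_
    obtain ⟨c, hc⟩ := hΛ j i
    have : ((Λ j i : ℤ) : IsLocalRing.ResidueField O) =
        (q.2.getD j 0 : ℕ) * (q.1.getD i 0 : ℕ) := by
      have := congrArg (Int.cast : ℤ → IsLocalRing.ResidueField O) hc
      push_cast at this
      rw [hp, zero_mul, sub_eq_zero] at this
      simpa using this
    rw [this]; ring
  have hcount : P.length ≤
      P.countP (fun q => decide (ldot (List.ofFn fun i => r (u' i)) q.1 = 0)) +
      P.countP (fun q => decide (ldot (List.ofFn fun j => r (v' j)) q.2 = 0)) := by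
    clear h hU hV hlen
    induction P with
    | nil => simp
    | cons q P ih =>
      have h1 := ih fun q' hq' => key q' (List.mem_cons_of_mem _ hq')
      have h2 := key q List.mem_cons_self
      simp only [List.countP_cons, List.length_cons, decide_eq_true_eq]
      rcases h2 with h2 | h2 <;> simp only [h2, if_true] <;> split_ifs <;> omega
  by_cases hc : m ≤ P.countP (fun q => decide (ldot (List.ofFn fun i => r (u' i)) q.1 = 0))
  · have := check_sound p hpp hp m _ hU (List.ofFn fun i => r (u' i)) (by simp)
      (by rw [List.countP_map]; exact hc) (r (u' i₀)) (List.mem_ofFn.2 ⟨i₀, rfl⟩)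
    rw [hi₀, map_one] at this
    exact one_ne_zero this
  · have hc' : n ≤ P.countP (fun q => decide (ldot (List.ofFn fun j => r (v' j)) q.2 = 0)) := by
      omega
    have := check_sound p hpp hp n _ hV (List.ofFn fun j => r (v' j)) (by simp)
      (by rw [List.countP_map]; exact hc') (r (v' j₀)) (List.mem_ofFn.2 ⟨j₀, rfl⟩)
    rw [hj₀, map_one] at this
    exact one_ne_zero this

end Crest.Agent.R345
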