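import Crest.Agent.R345.Data
import Crest.Agent.R345.Val

set_option autoImplicit false

namespace Crest.Agent.R345

def ent (T : List (List (List ℤ))) (s i : ℕ) : List ℤ := (T.getD s []).getD i []

def dot3 : List ℤ → List ℤ → List ℤ → ℤ
  | c :: cs, x :: xs, y :: ys => Int.add (Int.mul (Int.mul c x) y) (dot3 cs xs ys)
  | _, _, _ => 0

def dot1 : List ℤ → List ℤ → ℤ
  | x :: xs, y :: ys => Int.add (Int.mul x y) (dot1 xs ys)
  | _, _ => 0

def dot2 : List (List ℤ) → List (List ℤ) → ℤ
  | x :: xs, y :: ys => Int.add (dot1 x y) (dot2 xs ys)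
  | _, _ => 0

def symChk (c : List ℤ) (T : List (List (List ℤ))) (t : ℕ) : Bool :=
  (List.range t).all fun s => (List.range 10).all fun j => (List.range j).all fun i =>
    dot3 c (ent T s i) (ent T t j) == dot3 c (ent T t i) (ent T s j)

def lam (φ : List ℤ) (j i : ℕ) : ℤ := φ.getD ((Etab.getD j []).getD i 0) 0

def lamCols (φ : List ℤ) : List (List ℤ) :=
  (List.range 6).map fun i => (List.range 10).map fun j => lam φ j i

def annChk (φ : List ℤ) : Bool :=
  LB.all fun Lb => KA.all fun Ka =>
    dot2 (Lb.map fun v => (lamCols φ).map fun c => dot1 c v) Ka == 0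

def annAt (k : ℕ) : Bool := annChk (pts.getD k (([], []), [])).2

theorem checkU : check 9949 6 ((pts.map Prod.fst).map Prod.fst) = true := by decide +kernel
theorem checkV : check 9949 10 ((pts.map Prod.fst).map Prod.snd) = true := by decide +kernel

theorem symK : (List.range 10).all (symChk cK TK) = true := by decide +kernel
theorem symL : (List.range 10).all (symChk cL TL) = true := by decide +kernel

theorem congrPts : ∀ q ∈ pts, ∀ (j : Fin 10) (i : Fin 6),
    (9949 : ℤ) ∣ lam q.2 j i - (q.1.2.getD j 0 : ℕ) * (q.1.1.getD i 0 : ℕ) := by decide +kernel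

theorem KA_eq : ∀ (a : Fin 15) (s : Fin 10) (i : Fin 6),
    (ent KA a s).getD i 0 = (ent TK s i).getD a 0 := by decide +kernel
theorem LB_eq : ∀ (b : Fin 20) (s : Fin 10) (j : Fin 10),
    (ent LB b s).getD j 0 = (ent TL j s).getD b 0 := by decide +kernel

theorem annAt0 : annAt 0 = true := by decide +kernel
theorem annAt1 : annAt 1 = true := by decide +kernel
theorem annAt2 : annAt 2 = true := by decide +kernel
theorem annAt3 : annAt 3 = true := by decide +kernel
theorem annAt4 : annAt 4 = true := by decide +kernel
theorem annAt5 : annAt 5 = true := by decide +kernel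
theorem annAt6 : annAt 6 = true := by decide +kernel
theorem annAt7 : annAt 7 = true := by decide +kernel
theorem annAt8 : annAt 8 = true := by decide +kernel
theorem annAt9 : annAt 9 = true := by decide +kernel
theorem annAt10 : annAt 10 = true := by decide +kernel
theorem annAt11 : annAt 11 = true := by decide +kernel
theorem annAt12 : annAt 12 = true := by decide +kernel
theorem annAt13 : annAt 13 = true := by decide +kernel
theorem annAt14 : annAt 14 = true := by decide +kernel

end Crest.Agent.R345
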