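import Crest.Agent.R345.Check
import Crest.Agent.R345.Kraus

set_option autoImplicit false

namespace Crest.Agent.R345

open Crest.Quantum Matrix
open scoped ComplexOrder Kronecker

theorem dot3_eq (n : ℕ) (c x y : List ℤ) (h : c.length ≤ n) :
    dot3 c x y = ∑ a : Fin n, c.getD a 0 * x.getD a 0 * y.getD a 0 := by
  induction n generalizing c x y with
  | zero =>
    have : c = [] := List.length_eq_zero_iff.1 (by omega)
    subst this; simp [dot3]
  | succ n ih =>
    cases c with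
    | nil => simp [dot3]
    | cons c cs =>
      cases x with
      | nil => simp [dot3]
      | cons x xs =>
        cases y with
        | nil => simp [dot3]
        | cons y ys =>
          rw [Fin.sum_univ_succ]
          have := ih cs xs ys (by simpa using h)
          simp only [dot3, this]
          simp

theorem dot1_eq (n : ℕ) (x y : List ℤ) (h : x.length ≤ n) :
    dot1 x y = ∑ a : Fin n, x.getD a 0 * y.getD a 0 := by
  induction n generalizing x y with
  | zero =>
    have : x = [] := List.length_eq_zero_iff.1 (by omega)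
    subst this; simp [dot1]
  | succ n ih =>
    cases x with
    | nil => simp [dot1]
    | cons x xs =>
      cases y with
      | nil => simp [dot1]
      | cons y ys =>
        rw [Fin.sum_univ_succ]
        have := ih xs ys (by simpa using h)
        simp only [dot1, this]
        simp

theorem dot2_eq (n : ℕ) (x y : List (List ℤ)) (h : x.length ≤ n) :
    dot2 x y = ∑ a : Fin n, dot1 (x.getD a []) (y.getD a []) := by
  induction n generalizing x y with
  | zero =>
    have : x = [] := List.length_eq_zero_iff.1 (by omega)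
    subst this; simp [dot2]
  | succ n ih =>
    cases x with
    | nil => simp [dot2, dot1]
    | cons x xs =>
      cases y with
      | nil =>
        have : ∀ z : List ℤ, dot1 z [] = 0 := fun z => by cases z <;> rfl
        simp [dot2, this]
      | cons y ys =>
        rw [Fin.sum_univ_succ]
        have := ih xs ys (by simpa using h)
        simp only [dot2, this]
        simp

theorem dot3_comm (c x y : List ℤ) : dot3 c x y = dot3 c y x := by
  rw [dot3_eq _ c x y le_rfl, dot3_eq _ c y x le_rfl]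
  exact Finset.sum_congr rfl fun a _ => by ring

theorem sym_of_chk (c : List ℤ) (T : List (List (List ℤ)))
    (h : (List.range 10).all (symChk c T) = true) (s t i j : Fin 10) :
    dot3 c (ent T s i) (ent T t j) = dot3 c (ent T t i) (ent T s j) := by
  have key : ∀ s t i j : Fin 10, s < t → i < j →
      dot3 c (ent T s i) (ent T t j) = dot3 c (ent T t i) (ent T s j) := by
    intro s t i j hst hij
    simp only [symChk, List.all_eq_true, List.mem_range, beq_iff_eq] at h
    exact h t t.2 s hst j j.2 i hij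
  have key2 : ∀ s t i j : Fin 10, s < t →
      dot3 c (ent T s i) (ent T t j) = dot3 c (ent T t i) (ent T s j) := by
    intro s t i j hst
    rcases lt_trichotomy i j with hij | rfl | hij
    · exact key s t i j hst hij
    · exact dot3_comm _ _ _
    · rw [dot3_comm, ← key s t j i hst hij, dot3_comm]
  rcases lt_trichotomy s t with hst | rfl | hst
  · exact key2 s t i j hst
  · rfl
  · exact (key2 t s i j hst).symm

/-- integer Kraus entries -/
def Kz (a : Fin 15) (s i : Fin 10) : ℤ := (ent TK s i).getD a 0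
def Lz (b : Fin 20) (j s : Fin 10) : ℤ := (ent TL j s).getD b 0

noncomputable def Kc (a : Fin 15) : Matrix (Fin 10) (Fin 10) ℂ := Matrix.of fun s i => (Kz a s i : ℂ)
noncomputable def Lc (b : Fin 20) : Matrix (Fin 10) (Fin 10) ℂ := Matrix.of fun j s => (Lz b j s : ℂ)
noncomputable def wK (a : Fin 15) : ℝ := (cK.getD a 0 : ℤ)
noncomputable def wL (b : Fin 20) : ℝ := (cL.getD b 0 : ℤ)

theorem wK_nonneg (a : Fin 15) : 0 ≤ wK a := by
  have : ∀ a : Fin 15, 0 ≤ cK.getD a 0 := by decide +kernel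
  exact Int.cast_nonneg (this a)
theorem wL_nonneg (b : Fin 20) : 0 ≤ wL b := by
  have : ∀ a : Fin 20, 0 ≤ cL.getD a 0 := by decide +kernel
  exact Int.cast_nonneg (this b)

noncomputable def Φ₁ : Matrix (Fin 10) (Fin 10) ℂ → Matrix (Fin 10) (Fin 10) ℂ := kraus wK Kc
noncomputable def Φ₂ : Matrix (Fin 10) (Fin 10) ℂ → Matrix (Fin 10) (Fin 10) ℂ := kraus wL Lc

theorem Φ₁_symm (X : Matrix (Fin 10) (Fin 10) ℂ) : (Φ₁ X).transpose = Φ₁ X := by
  ext s t
  rw [Matrix.transpose_apply, Φ₁, kraus_apply, kraus_apply]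
  refine Finset.sum_congr rfl fun i _ => Finset.sum_congr rfl fun j _ => ?_
  congr 1
  have := sym_of_chk cK TK symK t s i j
  rw [dot3_eq 15 _ _ _ (by decide), dot3_eq 15 _ _ _ (by decide)] at this
  have := congrArg (Int.cast : ℤ → ℂ) this
  simpa [wK, Kc, Kz] using this

theorem Φ₂_symm (X : Matrix (Fin 10) (Fin 10) ℂ) : (Φ₂ X).transpose = Φ₂ X := by
  ext s t
  rw [Matrix.transpose_apply, Φ₂, kraus_apply, kraus_apply]
  refine Finset.sum_congr rfl fun i _ => Finset.sum_congr rfl fun j _ => ?_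
  congr 1
  have := sym_of_chk cL TL symL t s i j
  rw [dot3_eq 20 _ _ _ (by decide), dot3_eq 20 _ _ _ (by decide)] at this
  have := congrArg (Int.cast : ℤ → ℂ) this
  simpa [wL, Lc, Lz] using this

theorem comp_eq (X : Matrix (Fin 10) (Fin 10) ℂ) :
    Φ₂ (Φ₁ X) = kraus (fun q : Fin 20 × Fin 15 => wL q.1 * wK q.2) (fun q => Lc q.1 * Kc q.2) X := by
  simp only [Φ₁, Φ₂, kraus, Fintype.sum_prod_type, Matrix.mul_sum, Matrix.sum_mul, Finset.smul_sum,
    Matrix.mul_smul, Matrix.smul_mul, smul_smul, Matrix.conjTranspose_mul, Matrix.mul_assoc,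
    Complex.ofReal_mul]

theorem choi_apply (p q : Fin 10 × Fin 10) :
    choiMatrix (Φ₂ ∘ Φ₁) p q = ∑ r : Fin 20 × Fin 15,
      ((wL r.1 * wK r.2 : ℝ) : ℂ) * (Lc r.1 * Kc r.2) p.2 p.1 * star ((Lc r.1 * Kc r.2) q.2 q.1) := by
  simp only [choiMatrix, Matrix.of_apply, Function.comp, comp_eq, kraus_apply]
  simp [Matrix.single_apply, ite_and]

theorem vecMul_choi (l : Fin 10 × Fin 10 → ℂ)
    (hl : ∀ b a, ∑ p : Fin 10 × Fin 10, l p * (Lc b * Kc a) p.2 p.1 = 0) :
    l ᵥ* choiMatrix (Φ₂ ∘ Φ₁) = 0 := by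
  ext q
  simp only [Matrix.vecMul, dotProduct, choi_apply, Finset.mul_sum, Pi.zero_apply]
  rw [Finset.sum_comm]
  refine Finset.sum_eq_zero fun r _ => ?_
  have := hl r.1 r.2
  calc _ = ((wL r.1 * wK r.2 : ℝ) : ℂ) * star ((Lc r.1 * Kc r.2) q.2 q.1) *
        ∑ p : Fin 10 × Fin 10, l p * (Lc r.1 * Kc r.2) p.2 p.1 := by
        rw [Finset.mul_sum]; exact Finset.sum_congr rfl fun p _ => by ring
    _ = 0 := by rw [this, mul_zero]

theorem ann_all : ∀ q ∈ pts, annChk q.2 = true := by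
  intro q hq
  obtain ⟨k, hk, rfl⟩ := List.getElem_of_mem hq
  have hlen : pts.length = 15 := rfl
  have h : annAt k = true := by
    rw [hlen] at hk
    interval_cases k
    exacts [annAt0, annAt1, annAt2, annAt3, annAt4, annAt5, annAt6, annAt7, annAt8, annAt9,
      annAt10, annAt11, annAt12, annAt13, annAt14]
  unfold annAt at h
  rwa [List.getD_eq_getElem _ _ hk] at h

theorem Kz_zero : ∀ (a : Fin 15) (s : Fin 10) (i : Fin 4), Kz a s (Fin.natAdd 6 i) = 0 := by
  decide +kernel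

theorem ann_sum (φ : List ℤ) (h : annChk φ = true) (b : Fin 20) (a : Fin 15) :
    ∑ s : Fin 10, ∑ i : Fin 6, (∑ j : Fin 10, lam φ j i * Lz b j s) *
      Kz a s (Fin.castAdd 4 i) = 0 := by
  simp only [annChk, List.all_eq_true, beq_iff_eq] at h
  have hb : b.val < LB.length := b.2
  have ha : a.val < KA.length := a.2
  have hlen : ∀ b : Fin 20, (LB.getD b []).length = 10 := by decide +kernel
  have h1 := h (LB.getD b []) (by rw [List.getD_eq_getElem _ _ hb]; exact List.getElem_mem hb)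
    (KA.getD a []) (by rw [List.getD_eq_getElem _ _ ha]; exact List.getElem_mem ha)
  rw [dot2_eq 10 _ _ (by rw [List.length_map, hlen b])] at h1
  rw [← h1]
  refine Finset.sum_congr rfl fun s _ => ?_
  have hs : s.val < (LB.getD b []).length := by rw [hlen]; exact s.2
  rw [List.getD_eq_getElem _ _ (by simpa using hs), List.getElem_map,
    dot1_eq 6 _ _ (by simp [lamCols])]
  refine Finset.sum_congr rfl fun i _ => ?_
  congr 1
  · rw [List.getD_eq_getElem _ _ (by simp [lamCols]), List.getElem_map,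
      dot1_eq 10 _ _ (by simp [lamCols])]
    refine Finset.sum_congr rfl fun j _ => ?_
    congr 1
    · simp [lamCols]
    · rw [Lz, ← LB_eq b s j, ent, List.getD_eq_getElem _ _ hs]
  · exact (KA_eq a s i).symm

theorem no_product (u v : Fin 10 → ℂ)
    (h : ∀ l : Fin 10 × Fin 10 → ℂ, l ᵥ* choiMatrix (Φ₂ ∘ Φ₁) = 0 →
      l ⬝ᵥ (fun p => u p.1 * v p.2) = 0) : u = 0 ∨ v = 0 := by
  by_cases hv : v = 0
  · exact Or.inr hv
  left
  have hhigh : ∀ i : Fin 4, u (Fin.natAdd 6 i) = 0 := by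
    intro i
    obtain ⟨j, hj⟩ := Function.ne_iff.1 hv
    have := h (Pi.single (Fin.natAdd 6 i, j) 1) (vecMul_choi _ fun b a => by
      rw [Finset.sum_eq_single (Fin.natAdd 6 i, j)]
      · simp [Matrix.mul_apply, Kc, Kz_zero]
      · intro p _ hp; simp [hp]
      · simp)
    simp only [single_one_dotProduct, mul_eq_zero] at this
    exact this.resolve_right hj
  have hlow := no_solution 9949 (by norm_num) 6 10 (pts.map Prod.fst) (by decide) checkU checkV
    (fun i => u (Fin.castAdd 4 i)) v (by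
      intro q hq
      obtain ⟨q', hq', rfl⟩ := List.mem_map.1 hq
      refine ⟨fun j i => lam q'.2 j i, fun j i => congrPts q' hq' j i, ?_⟩
      have := h (fun p => (lam q'.2 p.2 p.1 : ℂ)) (vecMul_choi _ fun b a => by
        have h0 := congrArg (Int.cast : ℤ → ℂ) (ann_sum _ (ann_all q' hq') b a)
        push_cast at h0
        rw [← h0, Fintype.sum_prod_type, Fin.sum_univ_add (a := 6) (b := 4)]
        simp only [Matrix.mul_apply, Kc, Lc, Matrix.of_apply, Kz_zero, Int.cast_zero, mul_zero,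
          Finset.sum_const_zero, add_zero, Finset.mul_sum, Finset.sum_mul, Fin.val_castAdd]
        rw [Finset.sum_comm (s := (Finset.univ : Finset (Fin 10)))]
        refine Finset.sum_congr rfl fun i _ => ?_
        rw [Finset.sum_comm]
        refine Finset.sum_congr rfl fun s _ => Finset.sum_congr rfl fun j _ => ?_
        ring)
      rw [dotProduct, Fintype.sum_prod_type, Fin.sum_univ_add (a := 6) (b := 4)] at this
      simp only [hhigh, zero_mul, mul_zero, Finset.sum_const_zero, add_zero,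
        Fin.val_castAdd] at this
      rw [Finset.sum_comm, ← this]
      exact Finset.sum_congr rfl fun i _ => Finset.sum_congr rfl fun j _ => by ring)
  have hlow' := hlow.resolve_right hv
  funext i
  refine Fin.addCases (m := 6) (n := 4) (fun i => ?_) (fun i => ?_) i
  · exact congrFun hlow' i
  · exact hhigh i

theorem choi_ne_zero : choiMatrix (Φ₂ ∘ Φ₁) ≠ 0 := by
  intro h
  have h1 := congrFun (congrFun h (0, 9)) (0, 9)
  rw [choi_apply] at h1
  have h2 : ∑ r : Fin 20 × Fin 15, cL.getD r.1 0 * cK.getD r.2 0 *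
      (∑ s : Fin 10, Lz r.1 9 s * Kz r.2 s 0) * (∑ s : Fin 10, Lz r.1 9 s * Kz r.2 s 0) ≠ 0 := by
    decide +kernel
  apply h2
  have : ((∑ r : Fin 20 × Fin 15, cL.getD r.1 0 * cK.getD r.2 0 *
      (∑ s : Fin 10, Lz r.1 9 s * Kz r.2 s 0) * (∑ s : Fin 10, Lz r.1 9 s * Kz r.2 s 0) : ℤ) : ℂ)
      = 0 := by
    simpa [wL, wK, Lc, Kc, Matrix.mul_apply] using h1
  exact_mod_cast this

theorem not_separable (t : ℂ) (ht : t ≠ 0) : ¬ IsSeparable (t • choiMatrix (Φ₂ ∘ Φ₁)) := by
  intro h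
  have := eq_zero_of_separable _ h (fun u v huv => no_product u v fun l hl => huv l (by
    rw [Matrix.vecMul_smul, hl, smul_zero]))
  exact choi_ne_zero ((smul_eq_zero.1 this).resolve_left ht)

/-- outer square of the vector `∑ e_i ⊗ e_(f i)` -/
noncomputable def omega {n : ℕ} (f : Fin 10 → Fin n) : Matrix (Fin 10 × Fin n) (Fin 10 × Fin n) ℂ :=
  Matrix.vecMulVec (fun p => if f p.1 = p.2 then 1 else 0)
    (star fun p : Fin 10 × Fin n => if f p.1 = p.2 then (1 : ℂ) else 0)

theorem posSemidef_omega {n : ℕ} (f : Fin 10 → Fin n) : (omega f).PosSemidef :=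
  Matrix.posSemidef_vecMulVec_self_star _

theorem block_omega {n : ℕ} (f : Fin 10 → Fin n) (i j : Fin 10) :
    block (omega f) i j = Matrix.single (f i) (f j) 1 := by
  ext a b
  simp only [block, omega, Matrix.of_apply, Matrix.vecMulVec_apply, Pi.star_apply,
    Matrix.single_apply]
  by_cases h1 : f i = a <;> by_cases h2 : f j = b <;> simp [h1, h2]

def e1 (i : Fin 10) : Fin 21 := ⟨i, by omega⟩
def e2 (i : Fin 10) : Fin 21 := ⟨i + 10, by omega⟩
noncomputable def E1 : Matrix (Fin 21) (Fin 10) ℂ := Matrix.of fun x i => if x = e1 i then 1 else 0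
noncomputable def E2 : Matrix (Fin 21) (Fin 10) ℂ := Matrix.of fun x i => if x = e2 i then 1 else 0

theorem E1_conj (Y : Matrix (Fin 21) (Fin 21) ℂ) : E1ᴴ * Y * E1 = Y.submatrix e1 e1 := by
  ext i j; simp [E1, Matrix.mul_apply, apply_ite]
theorem E2_conj (Y : Matrix (Fin 21) (Fin 21) ℂ) : E2ᴴ * Y * E2 = Y.submatrix e2 e2 := by
  ext i j; simp [E2, Matrix.mul_apply, apply_ite]
theorem e1_inj (i j : Fin 10) : e1 i = e1 j ↔ i = j := by simp [e1, Fin.ext_iff]
theorem e2_inj (i j : Fin 10) : e2 i = e2 j ↔ i = j := by simp [e2, Fin.ext_iff]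
theorem e1_ne_e2 (i j : Fin 10) : e1 i ≠ e2 j := by
  simp only [e1, e2, Ne, Fin.ext_iff]; omega
theorem E11 : E1ᴴ * E1 = 1 := by
  ext i j; simp [E1, Matrix.mul_apply, apply_ite, e1_inj, Matrix.one_apply, eq_comm]
theorem E22 : E2ᴴ * E2 = 1 := by
  ext i j; simp [E2, Matrix.mul_apply, apply_ite, e2_inj, Matrix.one_apply, eq_comm]
theorem E12 : E1ᴴ * E2 = 0 := by
  ext i j; simp [E1, E2, Matrix.mul_apply, apply_ite, (e1_ne_e2 _ _).symm]
theorem E21 : E2ᴴ * E1 = 0 := by
  ext i j; simp [E1, E2, Matrix.mul_apply, apply_ite, e1_ne_e2]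
theorem E1t : E1ᴴ = E1ᵀ := by
  ext i j; simp [E1, apply_ite]
theorem E2t : E2ᴴ = E2ᵀ := by
  ext i j; simp [E2, apply_ite]
theorem E1z : E1ᴴ * (Matrix.single 20 20 1 : Matrix (Fin 21) (Fin 21) ℂ) * E1 = 0 := by
  rw [E1_conj]; ext i j
  have : (20 : Fin 21) ≠ e1 i := by
    have := i.2
    simp only [e1, Ne, Fin.ext_iff]; simp; omega
  simp [Matrix.single_apply, this]
theorem E2z : E2ᴴ * (Matrix.single 20 20 1 : Matrix (Fin 21) (Fin 21) ℂ) * E2 = 0 := by
  rw [E2_conj]; ext i j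
  have : (20 : Fin 21) ≠ e2 i := by
    have := i.2
    simp only [e2, Ne, Fin.ext_iff]; simp; omega
  simp [Matrix.single_apply, this]

noncomputable def Θ₀ (Y : Matrix (Fin 21) (Fin 21) ℂ) : Matrix (Fin 21) (Fin 21) ℂ :=
  E2 * Φ₁ (E1ᴴ * Y * E1ᴴᴴ) * E2ᴴ + E1 * Φ₂ (E2ᴴ * Y * E2ᴴᴴ) * E1ᴴ

theorem Θ₀_cp : IsCompletelyPositive Θ₀ :=
  cp_add (cp_comp (cp_comp (cp_conj E1ᴴ) (kraus_cp _ wK_nonneg Kc)) (cp_conj E2))
    (cp_comp (cp_comp (cp_conj E2ᴴ) (kraus_cp _ wL_nonneg Lc)) (cp_conj E1))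

theorem Θ₀_symm (Y : Matrix (Fin 21) (Fin 21) ℂ) : (Θ₀ Y).transpose = Θ₀ Y := by
  simp only [Θ₀, Matrix.transpose_add, Matrix.transpose_mul, Φ₁_symm, Φ₂_symm]
  simp only [E1t, E2t, Matrix.transpose_transpose, Matrix.mul_assoc]

theorem Θ₀_linear : IsLinearMap ℂ Θ₀ := by
  have h1 := kraus_linear wK Kc
  have h2 := kraus_linear wL Lc
  constructor
  · intro X Y
    simp only [Θ₀, Φ₁, Φ₂, Matrix.mul_add, Matrix.add_mul, h1.map_add, h2.map_add]
    abel
  · intro t X
    simp only [Θ₀, Φ₁, Φ₂, Matrix.mul_smul, Matrix.smul_mul, h1.map_smul, h2.map_smul, smul_add]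

theorem Θ₀_trace : ∃ F : Matrix (Fin 21) (Fin 21) ℂ, F.IsHermitian ∧
    ∀ Y, (Θ₀ Y).trace = (F * Y).trace := by
  refine ⟨E1 * (∑ a, (wK a : ℂ) • ((Kc a)ᴴ * Kc a)) * E1ᴴ +
    E2 * (∑ a, (wL a : ℂ) • ((Lc a)ᴴ * Lc a)) * E2ᴴ, ?_, fun Y => ?_⟩
  · exact (Matrix.isHermitian_mul_mul_conjTranspose _ (herm_kraus _ _)).add
      (Matrix.isHermitian_mul_mul_conjTranspose _ (herm_kraus _ _))
  · rw [Θ₀, Matrix.trace_add, Matrix.add_mul, Matrix.trace_add, Matrix.trace_mul_cycle, E22,
      Matrix.trace_mul_cycle E1, E11, Matrix.one_mul, Matrix.one_mul, Φ₁, Φ₂, trace_kraus,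
      trace_kraus, Matrix.conjTranspose_conjTranspose, Matrix.conjTranspose_conjTranspose]
    congr 1
    · rw [← Matrix.mul_assoc, Matrix.trace_mul_comm]; simp only [Matrix.mul_assoc]
    · rw [← Matrix.mul_assoc, Matrix.trace_mul_comm]; simp only [Matrix.mul_assoc]

theorem exists_channel :
    ∃ Θ : Matrix (Fin 21) (Fin 21) ℂ → Matrix (Fin 21) (Fin 21) ℂ,
      IsChannel Θ ∧ IsPPT Θ ∧ ¬ IsEntanglementBreaking (Θ ∘ Θ) := by
  obtain ⟨F, hF, hFt⟩ := Θ₀_trace
  obtain ⟨s, hs, hD⟩ := exists_small F hF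
  let Θ : Matrix (Fin 21) (Fin 21) ℂ → Matrix (Fin 21) (Fin 21) ℂ := fun Y =>
    (s : ℂ) • Θ₀ Y + ((1 - (s : ℂ) • F) * Y).trace • (Matrix.single 20 20 1)
  have hcp : IsCompletelyPositive Θ := cp_add (cp_smul Θ₀_cp s hs.le) (cp_trash _ hD 20)
  have h1 : ∀ Y, E1ᴴ * Θ Y * E1 = (s : ℂ) • Φ₂ (E2ᴴ * Y * E2) := by
    intro Y
    simp only [Θ, Θ₀, Matrix.mul_add, Matrix.add_mul, Matrix.mul_smul, Matrix.smul_mul, E1z,
      smul_zero, add_zero, Matrix.conjTranspose_conjTranspose]
    simp only [← Matrix.mul_assoc, E12, E11, Matrix.zero_mul, zero_add, Matrix.one_mul]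
    rw [Matrix.mul_assoc (Φ₂ _), E11, Matrix.mul_one]
  have h2 : ∀ Y, E2ᴴ * Θ Y * E2 = (s : ℂ) • Φ₁ (E1ᴴ * Y * E1) := by
    intro Y
    simp only [Θ, Θ₀, Matrix.mul_add, Matrix.add_mul, Matrix.mul_smul, Matrix.smul_mul, E2z,
      smul_zero, add_zero, Matrix.conjTranspose_conjTranspose]
    simp only [← Matrix.mul_assoc, E21, E22, Matrix.zero_mul, add_zero, Matrix.one_mul]
    rw [Matrix.mul_assoc (Φ₁ _), E22, Matrix.mul_one]
  refine ⟨Θ, ⟨⟨fun X Y => ?_, fun t X => ?_⟩, hcp, fun Y => ?_⟩, ppt_of_symm hcp fun Y => ?_, ?_⟩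
  · simp only [Θ, Θ₀_linear.map_add, Matrix.mul_add, Matrix.trace_add, smul_add, add_smul]
    abel
  · simp only [Θ, Θ₀_linear.map_smul, Matrix.mul_smul, Matrix.trace_smul, smul_add, smul_smul,
      smul_eq_mul, mul_comm]
  · simp [Θ, hFt, Matrix.sub_mul]
  · simp only [Θ, Matrix.transpose_add, Matrix.transpose_smul, Θ₀_symm, Matrix.transpose_single]
  · intro h
    obtain ⟨r, A, B, hA, hB, hsum⟩ := h 10 _ (posSemidef_omega e1)
    refine not_separable ((s : ℂ) * s) (by simpa using hs.ne') ⟨r, A, fun i => (B i).submatrix e1 e1,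
      hA, fun i => (hB i).submatrix _, ?_⟩
    ext ⟨i, a⟩ ⟨j, b⟩
    have h3 := congrFun (congrFun hsum (i, e1 a)) (j, e1 b)
    simp only [blockwise, Matrix.of_apply, block_omega, Function.comp] at h3
    have h4 := congrFun (congrFun (h1 (Θ (Matrix.single (e1 i) (e1 j) 1))) a) b
    rw [E1_conj, h2, E1_conj, Matrix.submatrix_apply, h3] at h4
    have h5 : (Matrix.single (e1 i) (e1 j) (1 : ℂ)).submatrix e1 e1 = Matrix.single i j 1 := by
      ext x y; simp [Matrix.single_apply, e1_inj]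
    rw [h5, Φ₂, (kraus_linear wL Lc).map_smul, smul_smul] at h4
    simp only [Matrix.sum_apply, Matrix.kroneckerMap_apply, Matrix.submatrix_apply] at h4 ⊢
    rw [h4]
    simp [choiMatrix, Φ₂]

end Crest.Agent.R345
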